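import Vale.Agent.Lib.P230.MainV2

/-!
# P230: lattice coverings by an arbitrary convex body

`Θ_L(n) ≤ C n (log n)^{13/10}`.
-/

open MeasureTheory
open scoped Pointwise

namespace Vale.Agent.Results.P230.PolylogLattice

/-- The set of all densities `vol K / det Λ` of lattice coverings of `ℝⁿ` by `K`:
`Λ` runs over the full-rank lattices of `ℝⁿ` with `K + Λ = ℝⁿ`. -/
def coveringDensities {n : ℕ} (K : Set (Fin n → ℝ)) : Set ℝ :=
  {θ | ∃ (Λ : Submodule ℤ (Fin n → ℝ)) (_ : DiscreteTopology Λ) (_ : IsZLattice ℝ Λ),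
    K + (Λ : Set (Fin n → ℝ)) = Set.univ ∧ θ = (volume K).toReal / ZLattice.covolume Λ}

/-- The lattice covering density `θ_L(K)`. -/
noncomputable def latticeCoveringDensity {n : ℕ} (K : Set (Fin n → ℝ)) : ℝ :=
  sInf (coveringDensities K)

theorem result : ∃ C : ℝ, 0 < C ∧ ∃ n₀ : ℕ, ∀ n : ℕ, n₀ ≤ n →
    ∀ K : Set (Fin n → ℝ), Convex ℝ K → IsCompact K → (interior K).Nonempty →
      (coveringDensities K).Nonempty ∧
      latticeCoveringDensity K ≤ C * n * (Real.log n) ^ ((13 : ℝ) / 10) := by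
  obtain ⟨C, hC, n₀, h⟩ := Vale.P230.main_cover_v2
  refine ⟨C, hC, n₀, fun n hn K hK hKc hKi => ?_⟩
  obtain ⟨Λ, i1, i2, hcov, hdens⟩ := h n hn K hK hKc hKi
  refine ⟨⟨_, Λ, i1, i2, hcov, rfl⟩, le_trans (csInf_le ⟨0, ?_⟩ ⟨Λ, i1, i2, hcov, rfl⟩) hdens⟩
  rintro θ ⟨Λ', j1, j2, -, rfl⟩
  exact div_nonneg ENNReal.toReal_nonneg (ZLattice.covolume_pos Λ').le

end Vale.Agent.Results.P230.PolylogLattice
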